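import Crest.Agent.X212.Kp63.Rf
import Crest.Agent.X212.Cyf70.Kp
import Crest.Agent.X212.Eqv71.Cyl

/-!
# Row 212, KP-IV (helper63): the gradient has no `dt`-component at invariant configurations
-/

set_option autoImplicit false
set_option linter.unusedSectionVars false
noncomputable section
open scoped Manifold ContDiff Topology InnerProductSpace
open MeasureTheory Set Function Filter

namespace Crest.Agent.X212.Kp63
open An Wz78 Cyf70 Dgr80 Nd18 Mp86 Cyc79
open ContinuousLinearMap (adjoint)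

variable {E3 : Type} [NormedAddCommGroup E3] [NormedSpace ℝ E3] [FiniteDimensional ℝ E3]
  [MeasurableSpace E3] [BorelSpace E3]
  {H3 : Type} [TopologicalSpace H3] {I3 : ModelWithCorners ℝ E3 H3} [I3.Boundaryless]
  {Y : Type} [TopologicalSpace Y] [ChartedSpace H3 Y] [IsManifold I3 ∞ Y] [T2Space Y]
  [MeasurableSpace Y] [BorelSpace Y] [SecondCountableTopology Y] [CompactSpace Y]
  {κ : Type} [Fintype κ] {lam : Type} [Fintype lam]
  {D : YD I3 Y κ lam} {β : YC Y κ lam} {c : ℝ} {x : Y × ℝ}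

theorem okz (hD : D.OK) : Eqv71.OKZ D := ⟨hD, Dec35.tame_Z hD⟩

theorem le_la {V : Type} [NormedAddCommGroup V] [InnerProductSpace ℝ V] [CompleteSpace V]
    (R : CL V V) (w : List (La Y)) : ∀ t ∈ (w.map D.nk.la).map (laV V), LE R c t := by
  simp only [List.forall_mem_map]
  intro t _
  cases t
  exacts [le_mul fun x => by rw [Spn45.nk_ext], trivial]

theorem le_laS (w : List (La Y)) : ∀ t ∈ (w.map D.nk.la).map (laS (cy β)), LE 1 c t := by
  rw [show laS (cy β) = laV _ from funext fun t => by cases t <;> rfl]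
  exact le_la 1 w

theorem le_ltS (w : List (YL Y)) : ∀ t ∈ (w.map D.nk.lt).map (ltS D.Z (cy β)), LE 1 c t := by
  rw [Spn45.lt_zl]
  exact List.forall_mem_map.2 fun t _ => le_zl t

variable (β c x) in
/-- even seeds -/
structure SeE (S : Sed (Y × ℝ) (Option κ) lam 0) : Prop where
  s : Ev 1 c (S.s (cy β))
  A : ∀ l, Ev 1 c l → S.sA (cy β) l x none = 0

variable (β c x) in
/-- even densities -/
def DnE (d : Den (Y × ℝ) (Option κ) lam 0) : Prop :=
  ∀ f : Y × ℝ → ℝ, (∀ y, f (rf c y) = f y) → d.gA (cy β) f x none = 0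

theorem SeE.den {S S' : Sed (Y × ℝ) (Option κ) lam 0} (h : SeE β c x S) (h' : SeE β c x S') :
    DnE β c x (Den.sed S S') := fun _ hf =>
  (congrArg₂ (· + ·) (h.A _ (h'.s.smul hf)) (h'.A _ (h.s.smul hf))).trans (add_zero _)

theorem DnE.cut {d : Den (Y × ℝ) (Option κ) lam 0} (h : DnE β c x d) : DnE β c x (dcut D.nk.χ d) :=
  fun _ hf => h _ fun y => by rw [hf, Spn45.nk_χ, Spn45.nk_χ]

variable (hβ : D.Adm β)
include hβ

theorem rv_W : Rv I3 (cy β).W 1 :=
  rv_one (Eqv71.mc_W hβ.adm.conn) (fun x => hβ.tmp x.1) fun _ _ _ => rfl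

theorem rv_ad : Rv I3 ((cy β).m.adW (cy β).W) 1 :=
  rv_one (Eqv71.mc_adW hβ.adm.conn)
    (fun x => (congrArg adcL (hβ.tmp x.1)).trans (map_zero _)) fun _ _ _ => rfl

variable (hx : rf c x = x)
include hx

theorem SeE.wd {S : Sed (Y × ℝ) (Option κ) lam 0} (h : SeE β c x S) (w : List (La Y)) :
    SeE β c x (S.wd D.Z (w.map D.nk.la)) :=
  ⟨(congrArg (Ev 1 c) (la_eq D.Z (cy β) _ _)).mpr ((rv_ad hβ).wd (le_laS w) h.s), fun _ hl =>
    (congrArg₂ (· + ·) ((rv_ad hβ).gc (fun _ _ => rfl) hx (le_laS w) h.s hl)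
      (h.A _ ((rv_ad hβ).bk (le_laS w) hl))).trans (add_zero _)⟩

theorem seE_cy (d : Cy Y) : SeE β c x ((D.nk.cyc d).sed D.Z) := by
  obtain ⟨R, h1, h2, h3⟩ := exists_R (k := Fin (cy β).m.N × Fin (cy β).m.N) D.F c
  have a := rv_ad hβ
  have h : Rv I3 (AA D.Z (cy β)) (fb R) :=
    ⟨⟨sm_aA a.mc.sm, fun b x => skew_amp (a.mc.sk b x)⟩,
      fun x => (congrArg (amp _) (a.tm x)).trans (map_zero _), fun _ _ _ => rfl,
      fun _ _ _ => fb_amp _ _ _, fun v w => by rw [inner_fb, h1], fun v => PiLp.ext fun i => h2 _⟩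
  have hr : ∀ ξ v, fb R (rr D.Z (cy β) ξ v) = rr D.Z (cy β) ξ (fb R v) := fun _ _ => fb_amp _ _ _
  have b : ∀ f f' : Y → ℝ, Ev (fb R) c (bf D.Z (cy β) (D.nk.ext f) (D.nk.ext f')) := fun f f' =>
    ev_fld h1 h3 fun u z => by
      have := congrFun (a.res_tr (F := D.F) (c := c)
        (s := fun y => f' y.1 • (cy β).m.pg y (u y))) (rf c z)
      rw [tr, rf_rf] at this
      rw [Spn45.nk_ext, Spn45.nk_ext]
      exact congrArg (f z.1 • ·) this
  have e : ∀ (w : List (La Y)) (f f' : Y → ℝ), ∀ t ∈ (w.map D.nk.la ++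
      xw (D.nk.ext f) (D.nk.ext f')).map (laV (Vc D.Z (cy β))), LE (fb R) c t := fun w f f' => by
    have := le_la (V := Vc D.Z (cy β)) (D := D) (c := c) (fb R) (w ++ xw f f')
    rwa [List.map_append (f := D.nk.la)] at this
  have ad : ∀ {l u}, Ev 1 c l → Ev (fb R) c u → Ev (fb R) c (adl D.Z (cy β) l u) :=
    fun hl hu => funext fun z => (hr _ _).trans
      (congrArg₂ (fun s t => rr D.Z (cy β) ((cy β).m.pg z s) t) (congrFun hl z) (congrFun hu z))
  have g : ∀ (w w' : List (La Y)) l, Ev 1 c l → gh D.Z (cy β) (D.nk.ext d.f) (D.nk.ext d.f')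
      (w.map D.nk.la) (w'.map D.nk.la) (adl D.Z (cy β) l) x none = 0 := fun w w' l hl =>
    (congrArg₂ (· + ·) (h.gc hr hx (e w _ _) (b _ _) (ad hl (h.wd (e w' _ _) (b _ _))))
      (h.gc hr hx (e [] _ _) (b _ _) (h.bk (e w _ _) (ad hl (h.wd (le_la _ w') (b _ _)))))).trans
      (add_zero _)
  refine ⟨funext fun z => congrArg ((cy β).m.pg z) ((h.tp_tp hr _ _).symm.trans (congrArg₂ _
    (congrFun (h.wd (e d.w _ _) (b _ _)) z) (congrFun (h.wd (e d.w' _ _) (b _ _)) z))),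
    fun l hl => (congrArg₂ (· - ·) (g _ _ l hl) (g _ _ l hl)).trans (sub_zero _)⟩

theorem dnE_sw {T : Pk (Y × ℝ) lam} (hT : ∀ y, pk (cy β) T (rf c y) = pk (cy β) T y)
    (u v : List (YL Y)) : DnE β c x (Den.sw D.Z T (u.map D.nk.lt) (v.map D.nk.lt)) := by
  have a := rv_W hβ
  have n : Ev 1 c (nP (cy β)) := rfl
  have b : ∀ u : List (YL Y), Ev 1 c (Dgr80.nw D.Z (cy β) (u.map D.nk.lt)) := fun u =>
    (nw_eq D.Z (cy β) _).symm ▸ a.wd (le_ltS u) n
  have g : ∀ (u : List (YL Y)) l, Ev 1 c l → swA D.Z (cy β) (u.map D.nk.lt) l x none = 0 :=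
    fun u l hl => a.gc (fun _ _ => rfl) hx (le_ltS u) n hl
  exact fun f hf => (congrArg₂ (· + ·) (g u _ (((b v).op hT).smul hf))
    (g v _ (((b u).op hT).smul hf))).trans (add_zero _)

theorem dnE_dg (N : ND Y lam) (j : N.J) : DnE β c x ((N.dg D.nk).d j) := by
  rcases j with j | j | j
  · show DnE β c x (D.nk.den (N.d0 j))
    cases N.d0 j with
    | sw u v => exact (dnE_sw hβ hx (fun _ => rfl) u v).cut
    | cy d w d' w' => exact (((seE_cy hβ hx d).wd hβ hx w).den ((seE_cy hβ hx d').wd hβ hx w')).cut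
  · exact (dnE_sw hβ hx (fun _ => by rw [Spn45.nk_ext]; rfl) _ _).cut
  · exact (dnE_sw hβ hx (fun _ => by rw [Spn45.nk_ext]; rfl) _ _).cut

omit hx

variable (hD : D.OK) {N : ND Y lam} (hN : N.OK D)
include hD hN

theorem co_cy (j : N.J) (t : ℝ) : (N.dg D.nk).co D.Z (cy β) j t = (N.dg D.nk).co D.Z (cy β) j 0 := by
  have h := (okz hD).Iv_cy hN (Eqv71.ad0 hβ.adm) t
  have e : (N.dg D.nk).Iv D.Z (cy β) t = (N.dg D.nk).Iv D.Z (cy β) 0 := funext fun j => by
    rcases j with j | j | j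
    exacts [congrFun (congrArg Prod.fst h) j, congrArg Complex.re (congrFun (congrArg Prod.snd h) j),
      congrArg Complex.im (congrFun (congrArg Prod.snd h) j)]
  rw [DG.co, DG.co, e]
  rfl

theorem β_cy (j : N.J) (t : ℝ) : (N.dg D.nk).β D.Z (cy β) j t = (N.dg D.nk).β D.Z (cy β) j 0 := by
  have := Eqv71.cv_shift (δ := N.δ) (s := t) (c := (N.dg D.nk).co D.Z (cy β) j)
    (fun s => (co_cy hβ hD hN j (s + t)).trans (co_cy hβ hD hN j s).symm) 0
  rwa [zero_add] at this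

/-- the `dt`-component of the gradient vanishes at `cy β` -/
theorem gA_none (x : Y × ℝ) : (N.dg D.nk).gA D.Z (cy β) x none = 0 := by
  rw [DG.gA, WithLp.ofLp_sum, Finset.sum_apply]
  exact Finset.sum_eq_zero fun j _ =>
    dnE_dg (c := x.2 + x.2) hβ (Prod.ext rfl (add_sub_cancel_right _ _)) N j _ fun y =>
    (β_cy hβ hD hN j _).trans (β_cy hβ hD hN j _).symm

omit hβ hD hN

open Map77 in
theorem fa_pC (m : Md (Y × ℝ) (Option κ) lam) (x : Y × ℝ) (α : Fm (Option κ) (HS (Fin m.N)))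
    (φ : Eu (Fin m.N)) : fa ((Dec35.mbd D.B m).pC x (i1 _ _ α + i2 _ _ φ)) none = m.pg x (α none) := by
  rw [f2_ps, map_add, f2_i1, f2_i2, add_zero]
  refine (Map77.idx_apply _ _ _ _).trans ?_
  simp [Fintype.sum_option, YD.B, cP]

theorem fa_gz (a : Dec35.Cz β) (x : Y × ℝ) : Map77.fa (gz N D β a x) none =
    (cy β).m.pg x ((N.dg D.nk).gA D.Z (Dec35.cf (cy β) a) x none) := fa_pC _ _ _ _

/-- **KP-IV** -/
theorem ivStmt : IvStmt I3 Y κ lam := fun N D β h b hb tb h0 x => by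
  have a : D.Adm (vr β (fun y => Map77.fa (b y)) fun y => Map77.fp (b y)) :=
    ⟨Dec35.cf_adm h.adm.adm (sm_fst hb) tb, fun y => by
      show β.W none y + opL (κ := Fin β.m.N) (Map77.fa (b y) none) = 0
      rw [h.adm.tmp, h0, zero_add]; exact map_zero _⟩
  exact (fa_gz _ x).trans ((congrArg _ (gA_none a h.ok h.nd x)).trans (map_zero _))

end Crest.Agent.X212.Kp63
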