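import Crest.Agent.X212.Kp63.Iv
import Crest.Agent.X212.Dec35.Nat
import Crest.Agent.X212.Cay24.Main

/-!
# Row 212, KP-NAT (helper63): translation invariance of the gradient and the gauge directions
-/

set_option autoImplicit false
set_option linter.unusedSectionVars false
noncomputable section
open scoped Manifold ContDiff Topology InnerProductSpace
open MeasureTheory Set Function Filter Real Asymptotics

namespace Crest.Agent.X212.Kp63
open An Map77 Sob92 Nd18 Dec35 Cyf70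
open Eqv71 (trZ nkR_shift nkR_refl dgk Ad0 ad0)
open Tmp64 (Eq0)

theorem p2_wd {M ι k : Type} [TopologicalSpace M] [MeasurableSpace M] [Fintype ι] [Fintype k]
    [DecidableEq k] {d : Bd M ι k} (h : d.OK) (x : M) (a : ι) (α : Fm ι (HS k)) :
    d.p2 x (wd2 _ (d.Px x) a (d.p1 x α)) =
      (2 : ℝ) • d.p2 x (WithLp.toLp 2 fun s => d.P s.1 a x • α s.2) := by
  refine ext_inner_right ℝ fun η => ?_
  have s := h.sd_p2 x η
  have e := h.prj1.symm x α (WithLp.toLp 2 fun c => d.p2 x η (a, c))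
  rw [h.p1_fix x (α := WithLp.toLp 2 fun c => d.p2 x η (a, c)) (fun _ => h.g_p2 x η _) (s.pr' a),
    inner_fm, inner_fm] at e
  rw [real_inner_smul_left, h.prj2.symm, h.prj2.symm, inner_wd2 (h.vol x).pr s, e, inner_fm,
    Fintype.sum_prod_type_right]
  refine congrArg _ (Finset.sum_congr rfl fun c _ => ?_)
  simp only [← s.pr a c, inner_sum, real_inner_smul_left, real_inner_smul_right, h.Ps a]

theorem kE_pC {M ι k : Type} [TopologicalSpace M] [MeasurableSpace M] [Fintype ι] [Fintype k]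
    [DecidableEq k] {d : Bd M ι k} (h : d.OK) (x : M) (a : ι) (α : Fm ι (HS k)) (φ : Eu k) :
    (-(sm2 (ContinuousLinearMap.id ℝ _) ((4 : ℝ) • ContinuousLinearMap.id ℝ _) ∘L
      d.pE x ∘L d.σ a x ∘L d.pC x)) (d.pC x (i1 _ _ α + i2 _ _ φ)) =
      i1 _ _ (-d.ρ a x (d.sp x φ)) +
        i2 _ _ ((-8 : ℝ) • d.p2 x (WithLp.toLp 2 fun s => d.P s.1 a x • α s.2)) := by
  refine ext2 ?_ ?_
  · simp only [neg_apply, ContinuousLinearMap.comp_apply, map_neg, f2_sm2, f2_ps, Bd.σ, σE, f2_pr2,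
      s2_ps, map_add (s2 _ _), map_add (f2 _ _), s2_i1, s2_i2, f2_i1, f2_i2, zero_add, add_zero,
      h.sp.idem, h.mp, ContinuousLinearMap.id_apply]
  · simp only [neg_apply, ContinuousLinearMap.comp_apply, map_neg, s2_sm2, f2_ps, Bd.σ, σE, s2_pr2,
      s2_ps, map_add (s2 _ _), map_add (f2 _ _), s2_i1, s2_i2, f2_i1, f2_i2, zero_add, add_zero,
      h.prj1.idem, p2_wd h, ContinuousLinearMap.id_apply, smul_apply, smul_smul, ← neg_smul]
    norm_num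

theorem zero_of_O {V : Type} [NormedAddCommGroup V] [NormedSpace ℝ V] {w : V}
    (h : (fun ε : ℝ => ε • w) =O[𝓝[>] 0] fun ε => ε ^ 2) : w = 0 := by
  have := h.trans_isLittleO ((isLittleO_pow_id (𝕜 := ℝ) one_lt_two).mono nhdsWithin_le_nhds)
  refine norm_le_zero_iff.1 (le_of_forall_pos_le_add fun c hc => ?_)
  obtain ⟨ε, h1, h2⟩ := ((isLittleO_iff.1 this hc).and self_mem_nhdsWithin).exists
  rw [norm_smul, mul_comm] at h1
  rw [zero_add]
  exact le_of_mul_le_mul_right h1 (norm_pos_iff.2 (ne_of_gt h2))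

variable {E3 : Type} [NormedAddCommGroup E3] [NormedSpace ℝ E3] [FiniteDimensional ℝ E3]
  [MeasurableSpace E3] [BorelSpace E3]
  {H3 : Type} [TopologicalSpace H3] {I3 : ModelWithCorners ℝ E3 H3} [I3.Boundaryless]
  {Y : Type} [TopologicalSpace Y] [ChartedSpace H3 Y] [IsManifold I3 ∞ Y] [T2Space Y]
  [MeasurableSpace Y] [BorelSpace Y] [SecondCountableTopology Y] [CompactSpace Y]
  {κ : Type} [Fintype κ] {lam : Type} [Fintype lam]
  {V : Type} [NormedAddCommGroup V] [InnerProductSpace ℝ V] [FiniteDimensional ℝ V]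
  {D : YD I3 Y κ lam} {β : YC Y κ lam} {N : ND Y lam} {r : ℕ}
  {c c' : Cfg (Y × ℝ) (Option κ) lam r}

/-! ### naturality of the gradient -/

theorem grad_iso (hD : D.OK) (hN : N.OK D) (h : Ad0 c D.B D.G) (h' : Ad0 c' D.B D.G)
    {u : Y × ℝ → CL c.m.V c'.m.V} {ζ : Circle}
    (e : CEq D.Z c c' univ id (Eqv71.PZ D) D.B.l u ζ) (x : Y × ℝ) :
    (N.dg D.nk).gA D.Z c' x = Eqv71.ridx (Eqv71.PZ D x) (Eqv71.cj (Eqv71.uz u ζ x))
      ((N.dg D.nk).gA D.Z c x) ∧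
    (N.dg D.nk).gP D.Z c' x = Eqv71.uz u ζ x ((N.dg D.nk).gP D.Z c x) := by
  obtain ⟨_, hT⟩ := tame_Z hD
  have k := nkR_refl (O := univ) D.nk fun _ h => (h trivial).elim
  have g := (k.dgR (okz hD).kc hN hT hT (fun _ => k.sr hD.B _) (Eqv71.cr0_univ h h' e)).grad
    (okz hD).kc (dgk D.nk hD.B h hN) (dgk D.nk hD.B h' hN)
  exact ⟨g.1 x trivial, g.2.rel x trivial⟩

theorem grad_sh (hD : D.OK) (hN : N.OK D) (h : Ad0 c D.B D.G) (s : ℝ) (x : Y × ℝ) :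
    (N.dg D.nk).gA D.Z (sh s c) x = (N.dg D.nk).gA D.Z c (trZ s x) ∧
    (N.dg D.nk).gP D.Z (sh s c) x = (N.dg D.nk).gP D.Z c (trZ s x) := by
  obtain ⟨_, hT⟩ := tame_Z hD
  have h' := Eqv71.ad0_sh h s
  have g := ((nkR_shift D s).dgR ((okz hD).kc_sh s) hN hT hT ((okz hD).sr_sh hN s)
    ((okz hD).cr_sh h s)).grad ((okz hD).kc_sh s) (dgk D.nk hD.B h' hN) (dgk D.nk hD.B h hN)
  have k := grad_iso hD hN h' h' (Eqv71.ceq_refl hD.B hD.G h' isOpen_univ) x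
  exact ⟨k.1.trans (g.1 x trivial).symm, k.2.trans (g.2.rel x trivial).symm⟩

theorem pC_sh (x : Y × ℝ) (t : ℝ) : (mbd D.B (cy β).m).pC x = (mbd D.B (cy β).m).pC (x.1, t) :=
  congrArg (fun P => sm2 (idx P (β.m.pg x.1)) ((cy β).m.pp D.B x))
    (funext₂ fun a b => by cases a <;> cases b <;> rfl)

theorem ti (h : Hz N D β) : Ti N D β := fun a ha s x => by
  have k := grad_sh h.ok h.nd (ad0 (cf_adm h.adm.adm ha.cb.choose_spec.1 ha.tg)) s x
  rw [gz, gz, pC_sh x (x.2 + s)]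
  exact congrArg₂ (fun (p : Fm (Option κ) (cy β).m.A) (q : (cy β).m.V) =>
    (mbd D.B (cy β).m).pC (x.1, x.2 + s) (i1 _ _ p + i2 _ _ q)) k.1 k.2

/-- the perturbation `q1` is `kE` of the gradient -/
theorem te_eq (h : Hz N D β) (a : Cz β) (x : Y × ℝ) :
    te (N.q1 D.nk : Pt _ _ _ 0 0) (cy β) a x = kE D β x (gz N D β a x) := by
  have o : (mbd D.B (cy β).m).OK := Wz78.bdOf_ok h.ok.B h.adm.adm.ok
  have d : ∀ b, D.Z.D b D.nk.τ x = D.B.P b none x := fun b => by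
    classical
    have := Spn45.sum_dt (D := D) (Pi.single b (1 : ℝ)) x
    rw [Spn45.nk_τ]
    cases b <;> simpa [Pi.single_apply, YD.B, cP] using this
  refine Eq.trans (congrArg₂ (fun (p : (cy β).m.V) (q : Fm (Option κ × Option κ) (cy β).m.A) =>
    i1 _ _ p + i2 _ _ q) ?_ ?_) (kE_pC o x none _ _).symm
  · show -∑ b, D.Z.D b D.nk.τ x • _ = _
    rw [Spn45.nk_τ]
    exact congrArg Neg.neg (Spn45.sum_dt _ x)
  · exact congrArg (fun α => (-8 : ℝ) • (cy β).m.p2 D.B x α)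
      (fm_ext fun s => congrArg (· • _) (d s.1))

/-! ### families of variations -/

variable (D) in
/-- the norms without weight -/
abbrev n0 (k : ℕ) (w : Y × ℝ → V) : ℝ := nw D.Z.toPre k (fun x => (fun _ => (0 : ℝ)) x.2) w

theorem wd0 {d : ℝ} (hd : 0 ≤ d) : Wd D.Z.toPre (fun x => (fun _ => (0 : ℝ)) x.2) d 0 := by
  have e : ∀ a, D.Z.toPre.D a (fun _ : Y × ℝ => (0 : ℝ)) = fun _ => 0 := fun a =>
    funext fun x => Mp86.dv_const 0
  exact ⟨contMDiff_const, fun _ => le_rfl, ⟨0, fun _ => le_rfl⟩, fun a x => by simpa [e] using hd,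
    fun a => by rw [e]; exact ⟨contMDiff_const, fun k => CB_mono (CB_const k (0 : ℝ)) (by simp)⟩⟩

theorem pt_O (hD : D.OK) {l : Filter ℝ} {w : ℝ → Y × ℝ → V} {g : ℝ → ℝ} {k : ℕ} (hk : 4 ≤ k)
    (hw : ∀ᶠ ε in l, Fl D.Z.toPre (w ε)) (h : (fun ε => n0 D k (w ε)) =O[l] g) (x : Y × ℝ) :
    (fun ε => w ε x) =O[l] g := by
  obtain ⟨_, hT⟩ := tame_Z hD
  obtain ⟨K, h0, hK⟩ := Dw_le (V := V) hT 0 0
  refine (IsBigO.of_bound K (hw.mono fun ε h => ?_)).trans h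
  have := hK _ 0 (wd0 le_rfl) _ h [] le_rfl x
  rw [neg_zero, exp_zero, mul_one] at this
  exact this.trans (mul_le_mul_of_nonneg_left ((nw_mono hk _).trans (le_abs_self _)) h0)

theorem n0_O {l : Filter ℝ} {W : Type} [NormedAddCommGroup W] [InnerProductSpace ℝ W] {j : ℕ}
    {w : ℝ → Y × ℝ → W} {f : ℝ → ℝ} {C : ℝ} (hC : 0 ≤ C)
    (h : ∀ᶠ ε in l, n0 D j (w ε) ≤ C * f ε) : (fun ε => n0 D j (w ε)) =O[l] f :=
  .of_bound C (h.mono fun _ h => (Real.norm_of_nonneg (Sob92.nrm_nonneg _ _)).trans_le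
    (h.trans (mul_le_mul_of_nonneg_left (le_abs_self _) hC)))

theorem d0_smul (f : Cz β → Y × ℝ → V) (ε : ℝ) (v : Cz β) (x : Y × ℝ) :
    d0 f (ε • v) x = ε • d0 f v x := by
  have := deriv_comp_mul_left ε (fun s : ℝ => f (s • v) x) 0
  rw [mul_zero] at this
  simp only [d0, smul_smul, mul_comm _ ε, this]

variable (D) in
/-- a family `u ε = ε v + O(ε²)` -/
structure Fm2 (u : ℝ → Cz β) (v : Cz β) : Prop where
  hv : Vr D β v
  hu : ∀ᶠ ε in 𝓝[>] 0, Vr D β (u ε)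
  O : (fun ε => n0 D 9 (u ε - ε • v)) =O[𝓝[>] 0] fun ε => ε ^ 2

namespace Fm2
variable {u : ℝ → Cz β} {v : Cz β} (h : Fm2 D u v)
include h

theorem sm (ε : ℝ) : Vr D β (ε • v) := ⟨h.hv.fl.csmul ε, h.hv.tg.smul fun _ => ε⟩

theorem sub : ∀ᶠ ε in 𝓝[>] 0, Vr D β (u ε - ε • v) :=
  h.hu.mono fun ε k => ⟨k.fl.sub (h.sm ε).fl, k.tg.sub (h.sm ε).tg⟩

variable (hD : D.OK)
include hD

theorem O1 : (fun ε => n0 D 9 (u ε)) =O[𝓝[>] 0] fun ε => ε := by
  obtain ⟨_, hT⟩ := tame_Z hD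
  have a : (fun ε : ℝ => |ε| * n0 D 9 v) =O[𝓝[>] 0] fun ε => ε :=
    .of_bound |n0 D 9 v| (.of_forall fun ε => by simp [mul_comm])
  refine (n0_O zero_le_one (h.sub.mono fun ε k => ?_)).trans ((h.O.trans
    ((isLittleO_pow_id (𝕜 := ℝ) one_lt_two).mono nhdsWithin_le_nhds).isBigO).add a)
  have := nw_add hT (wd0 le_rfl) k.fl (h.sm ε).fl 9
  rwa [sub_add_cancel, nw_csmul hT (wd0 le_rfl) ε h.hv.fl, ← one_mul (_ + _)] at this

theorem tw {f : Cz β → Y × ℝ → V} (T : Tw D β f) (x : Y × ℝ) :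
    (fun ε => f (u ε) x - f 0 x - ε • d0 f v x) =O[𝓝[>] 0] fun ε => ε ^ 2 := by
  obtain ⟨d, hd, hb⟩ := T.bd
  obtain ⟨C, hC, r, hr, hb⟩ := hb 8 le_rfl 0
  have hb := hb (fun _ => 0) (wd0 hd.le)
  have t : ∀ᶠ ε in 𝓝[>] 0, n0 D 9 (u ε) ≤ r := ((h.O1 hD).trans_tendsto
    (tendsto_id.mono_left nhdsWithin_le_nhds)).eventually (ge_mem_nhds hr)
  have a1 := pt_O hD (k := 8) (by norm_num) (h.hu.mono fun ε k => (T.fl _ k).2.sub (T.fl _ k).1)
    ((n0_O hC ((h.hu.and t).mono fun ε k => (hb _ k.1).2 k.2)).trans ((h.O1 hD).pow 2)) x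
  have a2 := pt_O hD (k := 8) (by norm_num) (h.sub.mono fun ε k => (T.fl _ k).1)
    ((n0_O hC (h.sub.mono fun ε k => (hb _ k).1.trans (mul_le_mul_of_nonneg_left
      (nw_mono (by norm_num : 8 ≤ 9) _) hC))).trans h.O) x
  refine (a1.add a2).congr' (h.sub.mono fun ε k => ?_) .rfl
  have := congrFun (T.add _ _ k (h.sm ε)) x
  rw [sub_add_cancel, Pi.add_apply, d0_smul] at this
  simp only [Pi.sub_apply, this]
  abel

variable (hβ : D.Adm β)
include hβ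

theorem lin (x : Y × ℝ) : (fun ε => lin D.B D.Z (cy β) (u ε) x - ε • lin D.B D.Z (cy β) v x)
    =O[𝓝[>] 0] fun ε => ε ^ 2 := by
  obtain ⟨_, hT, hG⟩ := (bs_cyl hD hβ).good_lin
  obtain ⟨K, h0, hK⟩ := nw_opA hT 0 hG 8
  refine (pt_O hD (k := 8) (by norm_num) (h.sub.mono fun ε k => k.fl.opA hG)
    ((n0_O h0 (h.sub.mono fun ε k => hK _ 0 (wd0 le_rfl) _ k.fl)).trans h.O) x).congr'
    (h.sub.mono fun ε k => ?_) .rfl
  have e : ∀ a, D.Z.D a (u ε - ε • v) x = D.Z.D a (u ε) x - ε • D.Z.D a v x := fun a => by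
    have := congrFun (D.Z.D_add k.fl.sm (h.sm ε).fl.sm a) x
    rw [sub_add_cancel, Pi.add_apply] at this
    rw [this, show D.Z.D a (ε • v) x = ε • D.Z.D a v x from
      dv_const_smul ε (h.hv.fl.sm.mdifferentiableAt (by simp)), add_sub_cancel_right]
  show Dec35.lin D.B D.Z (cy β) (u ε - ε • v) x = _
  simp only [Dec35.lin, Op.app, Pre.op, e, Pi.smul_apply, Pi.sub_apply, map_smul, map_sub, smul_add,
    Finset.smul_sum, Finset.sum_sub_distrib]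
  abel

omit hβ in
theorem qd (x : Y × ℝ) : (fun ε => qd D.B (cy β) x (u ε x) (u ε x)) =O[𝓝[>] 0] fun ε => ε ^ 2 := by
  have a := pt_O (V := Cv (cy β)) hD (k := 9) (by norm_num) (h.hu.mono fun _ k => k.fl) (h.O1 hD) x
  refine .trans (.of_bound ‖Dec35.qd D.B (cy β) x‖ (.of_forall fun ε => ?_)) (a.norm_left.pow 2)
  rw [Real.norm_of_nonneg (sq_nonneg _), sq, ← mul_assoc]
  exact ContinuousLinearMap.le_opNorm₂ _ _ _

end Fm2

/-- the orbit of the gauge group through `β` in the direction `ξ` -/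
theorem orbit (hD : D.OK) (hβ : D.Adm β) {ξ : Y × ℝ → (cy β).m.A} (hξ : Fl D.Z.toPre ξ)
    (hg : ∀ x, ξ x ∈ (cy β).m.gS x) : ∃ u, Fm2 D u (dg D.Z (cy β) 1 ξ) ∧ ∀ᶠ ε in 𝓝[>] 0,
      ∃ g, Eq0 D.Z (cf (cy β) 0) (cf (cy β) (u ε)) univ g := by
  have b := bs_cyl hD hβ
  obtain ⟨_, hT, hG⟩ := b.good_dO 1
  obtain ⟨K, h0, r, hr, h⟩ := Cay24.cay D.B D.G (cy β) b 9 (by norm_num) 0
  have a := dO_app hD.B hD.G hβ.adm 1 hξ.sm hg
  have n := fun ε k => nw_csmul hT (wd0 (D := D) le_rfl) ε hξ k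
  have t : ∀ᶠ ε in 𝓝[>] (0 : ℝ), |ε| * n0 D 10 ξ ≤ r :=
    (((by fun_prop : Continuous fun ε : ℝ => |ε| * n0 D 10 ξ).tendsto' 0 0 (by simp)).mono_left
      nhdsWithin_le_nhds).eventually (ge_mem_nhds hr)
  have e : ∀ ε : ℝ, dg D.Z (cy β) 1 (ε • ξ) = ε • dg D.Z (cy β) 1 ξ := fun ε => funext fun x => by
    have : ∀ a, dv (IC I3) (D.Z.e a) (ε • ξ) x = ε • dv (IC I3) (D.Z.e a) ξ x := fun a =>
      dv_const_smul ε (hξ.sm.mdifferentiableAt (by simp))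
    refine ext2 (fm_ext fun a => ?_) ?_ <;> simp [dg, Wz78.nab, this]
  obtain ⟨u, H⟩ := (t.mono fun ε k => exists_comm.1 (h _ 0 0 (ε • ξ) (wd0 le_rfl) Fl.zero Tg.zero
    (hξ.csmul ε) (fun x => Submodule.smul_mem _ _ (hg x)) ((n ε 10).trans_le k))).choice
  refine ⟨u, ⟨⟨a.1 ▸ hξ.opA hG, a.2⟩, H.mono fun _ ⟨_, k⟩ => ⟨k.1, k.2.1⟩,
    n0_O (C := K * n0 D 10 ξ ^ 2) (by positivity) (H.mono fun ε ⟨_, k⟩ => ?_)⟩,
    H.mono fun _ ⟨g, k⟩ => ⟨g, k.2.2.1⟩⟩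
  have z := nw_csmul hT (wd0 (D := D) le_rfl) 0 (Fl.zero (N := Cv (cy β))) 9
  have := k.2.2.2
  rw [zero_smul, abs_zero, zero_mul] at z
  rw [n, z, show dg D.G.F (cy β) 1 (ε • ξ) = _ from e ε] at this
  simp only [Pi.zero_apply, sub_zero] at this
  exact this.trans_eq (by rw [← sq_abs ε]; show K * (_ * n0 D 10 ξ + 0) * (_ * n0 D 10 ξ) = _; ring)

theorem sz_zero (h : N.Crit D β) : sz D β (N.q1 D.nk) 0 = 0 := funext fun x => by
  have e : ∀ c, c = cy β → c.eD D.G (N.q1 D.nk : Pt _ _ _ 0 0) x = 0 ∧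
      c.eC D.B D.G (N.q1 D.nk : Pt _ _ _ 0 0) x = 0 := fun c e => e ▸ ⟨h.sol.D x, h.sol.C x⟩
  have := e _ cf_zero
  exact (congrArg₂ (fun (p : (cy β).m.V) (q : Fm _ (cy β).m.A) => i1 _ _ p + i2 _ _ q) this.1 this.2).trans
    ((congrArg₂ (· + ·) (map_zero _) (map_zero _)).trans (add_zero _))

theorem gau (h : Hz N D β) (hc : N.Crit D β) (T : Tw D β (gz N D β)) : Gau N D β := by
  intro ξ hξ hg
  obtain ⟨u, f, e⟩ := orbit h.ok h.adm hξ hg
  have a0 := cf_adm h.adm.adm (u := 0) contMDiff_const Tg.zero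
  have t := f.tw h.ok T
  refine ⟨funext fun x => sub_eq_zero.1 (zero_of_O ?_), fun x => zero_of_O ?_⟩
  · refine (((kE D β x).isBigO_comp _ _).trans (t x)).sub ((f.lin h.ok h.adm x).add (f.qd h.ok x))
      |>.congr' ((e.and f.hu).mono fun ε ⟨⟨g, e⟩, k⟩ => ?_) .rfl
    have h1 := sz_nat h.ok h.adm (Eqv71.natZ ((okz h.ok).q1 h.nd) (okz h.ok)) (a := 0)
      contMDiff_const Tg.zero k.fl.sm k.tg e x
    have h2 := se_eq h.ok.B h.ok.G h.adm.adm (N.q1 D.nk : Pt _ _ _ 0 0) k.fl.sm k.tg x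
    have h0 := congrFun (sz_zero hc) x
    rw [h0] at h1
    rw [show se _ _ _ _ _ x = 0 from h1.trans (map_zero _), show se _ _ _ _ 0 x = 0 from h0, te_eq h, te_eq h,
      zero_add, eq_comm, sub_eq_zero, show D.G.F = D.Z from rfl] at h2
    simp only [map_sub, map_smul, ← h2, smul_sub, hz]
    abel
  · have z : ∀ {v : Cz β} {g}, Vr D β v → Eq0 D.Z (cf (cy β) 0) (cf (cy β) v) univ g →
        fa (gz N D β v x) none = 0 := fun {v g} k e => by
      have a := cf_adm h.adm.adm k.fl.sm k.tg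
      have h0 : (N.dg D.nk).gA D.Z (cf (cy β) 0) x none = 0 := by
        have : ∀ c, c = cy β → (N.dg D.nk).gA D.Z c x none = 0 :=
          fun c e => e ▸ gA_none h.adm h.ok h.nd x
        exact this _ cf_zero
      rw [fa_gz, (grad_iso h.ok h.nd (ad0 a0) (ad0 a) (Eq0.cEq (G := D.G) e h.ok.B
        (Tmp64.admOn_univ.2 a0) (Tmp64.admOn_univ.2 a)) x).1, Eqv71.ridx_apply]
      simp only [Fintype.sum_option, Eqv71.PZ, YD.B, cP, zero_smul, Finset.sum_const_zero, add_zero,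
        one_smul]
      exact (congrArg _ ((congrArg _ h0).trans (map_zero _))).trans (map_zero _)
    have z0 := z ⟨Fl.zero, Tg.zero⟩ (Eq0.refl (Tmp64.admOn_univ.2 a0))
    refine (((pj _ none ∘L fa).isBigO_comp _ _).trans (t x)).neg_left.congr'
      ((e.and f.hu).mono fun ε ⟨⟨g, e⟩, k⟩ => ?_) .rfl
    simp [z k e, z0, hz]

/-- **KP-NAT** -/
theorem ntStmt : NtStmt I3 Y κ lam := fun _ _ _ h => ⟨ti h, fun c T _ => gau h c T⟩

end Crest.Agent.X212.Kp63
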