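import Crest.Agent.X212.Eqv71.Hil
import Crest.Agent.X212.Spn45.Lift

/-!
# Row 212, KP-IV (helper63): the reflection of time on the cylinder and the gradient engine
-/

set_option autoImplicit false
set_option linter.unusedSectionVars false
noncomputable section
open scoped Manifold ContDiff Topology InnerProductSpace
open MeasureTheory Set Function Filter

namespace Crest.Agent.X212.Kp63
open An Wz78 Cyf70 Dgr80 Nd18 Mp86 Cyc79
open Sob92 (dv)
open Wrd81 (wd)
open ContinuousLinearMap (adjoint)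

variable {E3 : Type} [NormedAddCommGroup E3] [NormedSpace ℝ E3] [FiniteDimensional ℝ E3]
  [MeasurableSpace E3] [BorelSpace E3]
  {H3 : Type} [TopologicalSpace H3] {I3 : ModelWithCorners ℝ E3 H3} [I3.Boundaryless]
  {Y : Type} [TopologicalSpace Y] [ChartedSpace H3 Y] [IsManifold I3 ∞ Y] [T2Space Y]
  [MeasurableSpace Y] [BorelSpace Y] [SecondCountableTopology Y] [CompactSpace Y]
  {κ : Type} [Fintype κ] {lam : Type} [Fintype lam]

/-- the reflection of time -/
abbrev rf (c : ℝ) (x : Y × ℝ) : Y × ℝ := (x.1, c - x.2)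

theorem rf_rf (c : ℝ) (x : Y × ℝ) : rf c (rf c x) = x := Prod.ext rfl (sub_sub_cancel _ _)

/-- the sign of a frame field under the reflection -/
def sn : Option κ → ℝ
  | none => -1
  | some _ => 1

section calculus
variable {N : Type} [NormedAddCommGroup N] [NormedSpace ℝ N] {e : κ → Π y : Y, TangentSpace I3 y}

theorem sm_rf {w : Y × ℝ → N} (hw : Sm (IC I3) w) (c : ℝ) : Sm (IC I3) fun x => w (rf c x) :=
  hw.comp (contMDiff_fst.prodMk (contMDiff_const.sub contMDiff_snd))

theorem dv_rf {w : Y × ℝ → N} (hw : Sm (IC I3) w) (c : ℝ) (a : Option κ) (x : Y × ℝ) :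
    dv (IC I3) (ce e a) (fun x => w (rf c x)) x = sn a • dv (IC I3) (ce e a) w (rf c x) := by
  have h1 := sm_rf hw c
  cases a with
  | none =>
    rw [dv_none (h1.mdifferentiableAt (by simp)), dv_none (hw.mdifferentiableAt (by simp)), sn,
      neg_one_smul]
    exact deriv_comp_const_sub (fun s => w (x.1, s)) c x.2
  | some a =>
    rw [dv_some (h1.mdifferentiableAt (by simp)), dv_some (hw.mdifferentiableAt (by simp)), sn,
      one_smul]

end calculus

section engine
variable {V U : Type} [NormedAddCommGroup V] [InnerProductSpace ℝ V] [CompleteSpace V]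
  [NormedAddCommGroup U] [InnerProductSpace ℝ U] [CompleteSpace U]
  {F : Fr I3 Y κ} {A : Option κ → Y × ℝ → CL V V} {R : CL V V} {c : ℝ} {r : CL U (CL V V)}
  {s u l : Y × ℝ → V} {x : Y × ℝ}

/-- the reflected section -/
def tr (R : CL V V) (c : ℝ) (u : Y × ℝ → V) (x : Y × ℝ) : V := R (u (rf c x))

theorem sm_tr (hu : Sm (IC I3) u) : Sm (IC I3) (tr R c u) := R.contMDiff.comp (sm_rf hu c)

variable (I3 A R) in
/-- invariant connections in temporal gauge with a commuting symmetric involution -/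
structure Rv : Prop where
  mc : Mc (IC I3) A
  tm : ∀ x, A none x = 0
  inv : ∀ a c x, A a (rf c x) = A a x
  cm : ∀ a x v, R (A a x v) = A a x (R v)
  sym : ∀ v w, ⟪R v, w⟫_ℝ = ⟪v, R w⟫_ℝ
  idem : ∀ v, R (R v) = v

variable (R c) in
/-- even sections -/
def Ev (u : Y × ℝ → V) : Prop := tr R c u = u

variable (R c) in
/-- even letters -/
def LE : SL (Y × ℝ) V → Prop
  | .op T => ∀ ⦃u⦄, Ev R c u → Ev R c (fun x => T x (u x)) ∧ Ev R c fun x => adjoint (T x) (u x)
  | .G => True

theorem Ev.smul (h : Ev R c u) {f : Y × ℝ → ℝ} (hf : ∀ x, f (rf c x) = f x) :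
    Ev R c fun x => f x • u x := funext fun x => by
  rw [tr, map_smul, hf]; exact congrArg _ (congrFun h x)

theorem le_mul {f : Y × ℝ → ℝ} (hf : ∀ x, f (rf c x) = f x) :
    LE R c (.op fun x => f x • (1 : CL V V)) := fun _ h =>
  ⟨h.smul hf, by simp only [Eqv71.adj_smul_one]; exact h.smul hf⟩

theorem Ev.op (h : Ev 1 c u) {T : Y × ℝ → CL V V} (hT : ∀ x, T (rf c x) = T x) :
    Ev 1 c fun x => T x (u x) := funext fun x => by
  rw [tr, hT]; exact congrArg (T x) (congrFun h x)

theorem le_zl (t : SL Y V) : LE 1 c (Spn45.zl t) := by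
  cases t
  exacts [fun _ h => ⟨h.op fun _ => rfl, h.op fun _ => rfl⟩, trivial]

namespace Rv
variable (h : Rv I3 A R)
include h

theorem tr_tr : tr R c (tr R c u) = u := funext fun x => by rw [tr, tr, h.idem, rf_rf]

theorem nab_tr (t : ℝ) (hu : Sm (IC I3) u) (a : Option κ) :
    nab (IC I3) (cyl F).e A a (tr (t • R) c u) =
      tr ((sn a * t) • R) c (nab (IC I3) (cyl F).e A a u) := funext fun x => by
  have e : dv (IC I3) ((cyl F).e a) (tr (t • R) c u) x = _ :=
    (Sob92.dv_clm (t • R) ((sm_rf hu c).mdifferentiableAt (by simp))).trans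
      (congrArg _ (dv_rf hu c a x))
  rw [nab, e]
  simp only [tr, nab, smul_apply, map_smul, map_add, h.cm, h.inv, smul_smul]
  cases a
  · simp [h.tm, mul_comm]; rfl
  · simp [sn]; rfl

theorem lap_tr (hu : Sm (IC I3) u) (x : Y × ℝ) : lap (IC I3) (cyl F).e (cyl F).dv A (tr R c u) x =
    tr R c (lap (IC I3) (cyl F).e (cyl F).dv A u) x := by
  have e := fun a => h.nab_tr (F := F) (c := c) 1 hu a
  simp only [one_smul] at e
  simp only [lap, e, fun a t => h.nab_tr (F := F) (c := c) t (sm_nab (F := cyl F) h.mc.sm a hu) a]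
  simp only [tr, lap, map_neg, map_sum, map_add, map_smul, smul_apply]
  refine congrArg Neg.neg (Finset.sum_congr rfl fun a _ => ?_)
  cases a <;> simp [sn, cyl, Cyf70.cd]

theorem isRes_tr (k : (cyl F).IsRes A s u) : (cyl F).IsRes A (tr R c s) (tr R c u) :=
  ⟨sm_tr k.1, let ⟨C, b⟩ := k.2.1; ⟨‖R‖ * C, fun x => R.le_opNorm_of_le (b _)⟩, fun x => by
    rw [h.lap_tr k.1, tr, tr, tr, ← map_add, k.2.2]⟩

theorem res_tr : (cyl F).res A (tr R c s) = tr R c ((cyl F).res A s) := by
  rcases res_cases (cyl F) A s with k | k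
  · exact res_eq (Spn45.bumps_cyl F) h.mc (h.isRes_tr k)
  · rcases res_cases (cyl F) A (tr R c s) with k' | k'
    · exact (k.1 ⟨_, h.tr_tr (c := c) (u := s) ▸ h.isRes_tr k'⟩).elim
    · rw [k.2, k'.2]; exact funext fun _ => (map_zero R).symm

theorem res (k : Ev R c s) : Ev R c ((cyl F).res A s) := h.res_tr.symm.trans (congrArg _ k)

theorem wd {w : List (SL (Y × ℝ) V)} (hw : ∀ t ∈ w, LE R c t) (k : Ev R c s) :
    Ev R c (wd (sl (cyl F) A) s w) := by
  induction w with
  | nil => exact k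
  | cons t w ih =>
    have := ih fun t ht => hw t (.tail _ ht)
    have e := hw t (.head _)
    cases t
    exacts [(e this).1, h.res this]

theorem bk {w : List (SL (Y × ℝ) V)} (hw : ∀ t ∈ w, LE R c t) (k : Ev R c l) :
    Ev R c (bk (cyl F) A w l) := by
  induction w generalizing l with
  | nil => exact k
  | cons t w ih =>
    have e := hw t (.head _)
    refine ih (fun t ht => hw t (.tail _ ht)) ?_
    cases t
    exacts [(e k).2, h.res k]

variable (hr : ∀ ξ v, R (r ξ v) = r ξ (R v))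
include hr

theorem tp_tp (v w : V) : tp r (R v) (R w) = tp r v w := ext_inner_right ℝ fun ξ => by
  rw [inner_tp, inner_tp, ← hr, h.sym, h.idem]

variable (hx : rf c x = x)
include hx

theorem tp_nab (hu : Ev R c u) (hl : Ev R c l) (sl : Sm (IC I3) l) :
    tp r (u x) (nab (IC I3) (cyl F).e A none l x) = 0 := by
  have e := congrFun (h.nab_tr (F := F) (c := c) 1 sl none) x
  have e' := congrFun hu x
  rw [one_smul, show tr R c l = l from hl] at e
  rw [tr, hx] at e e'
  have := h.tp_tp hr (u x) (nab (IC I3) (cyl F).e A none l x)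
  rw [sn, mul_one, smul_apply, neg_one_smul, ← neg_eq_iff_eq_neg] at e
  rw [e', ← e, tp, tp, map_neg, neg_eq_iff_add_eq_zero, ← two_smul ℝ] at this
  exact (smul_eq_zero.1 this).resolve_left two_ne_zero

theorem gc {w : List (SL (Y × ℝ) V)} (hw : ∀ t ∈ w, LE R c t) (hs : Ev R c s) (hl : Ev R c l) :
    gc (cyl F) A r s w l x none = 0 := by
  induction w generalizing l with
  | nil => rfl
  | cons t w ih =>
    have e := hw t (.head _)
    have hw' := fun t ht => hw t (.tail _ ht)
    cases t with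
    | op T => exact ih hw' (e hl).2
    | G =>
      have a := h.res (F := F) (h.wd (F := F) hw' hs)
      have b := h.res (F := F) hl
      simp only [Dgr80.gc, PiLp.sub_apply, ih hw' b, cur, h.tp_nab hr hx a b (sm_res _ _ _),
        h.tp_nab hr hx b a (sm_res _ _ _), add_zero, sub_zero]

end Rv

theorem rv_one (hA : Mc (IC I3) A) (h0 : ∀ x, A none x = 0) (hi : ∀ a c x, A a (rf c x) = A a x) :
    Rv I3 A 1 := ⟨hA, h0, hi, fun _ _ _ => rfl, fun _ _ => rfl, fun _ => rfl⟩

end engine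

/-! ### the reflection on `L²` -/

section hil
variable {k : Type} [Fintype k] [DecidableEq k] (F : Fr I3 Y κ) (c : ℝ)

/-- the reflection as a homeomorphism -/
def rh : Y × ℝ ≃ₜ Y × ℝ := (Homeomorph.refl Y).prodCongr (Homeomorph.subLeft c)

theorem int_rf (f : Y × ℝ → ℝ) : ∫ x, f (rf c x) ∂(cyl F).μ = ∫ x, f x ∂(cyl F).μ := by
  have := F.fin
  exact ((MeasurePreserving.id F.μ).prod (Measure.measurePreserving_sub_left volume c)).integral_comp
    (rh c).measurableEmbedding f

/-- the reflection of test sections -/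
def rs : Sec (IC I3) (triv (Y × ℝ) (Eu k)) →ₗ[ℝ] Sec (IC I3) (triv (Y × ℝ) (Eu k)) where
  toFun w := ⟨tr 1 c w.1, sm_tr w.2.1, w.2.2.1.comp_homeomorph (rh c), fun _ => rfl⟩
  map_add' _ _ := rfl
  map_smul' _ _ := rfl

theorem exists_R : ∃ R : KK (cyl F).toPre k →L[ℝ] KK (cyl F).toPre k,
    adjoint R = R ∧ (∀ v, R (R v) = v) ∧ ∀ w, R ((cyl F).toH 0 _ w) = (cyl F).toH 0 _ (rs c w) := by
  obtain ⟨R, h, -⟩ := Pre.exists_ext (F := (cyl F).toPre) (k := 0) ((cyl F).toH 0 _ ∘ₗ rs (k := k) c)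
    zero_le_one fun w => by
      rw [LinearMap.comp_apply, Pre.norm_toH, one_mul, Pre.nrm, Pre.nrm]
      exact (congrArg _ (int_rf F c fun x => ⟪w.1 x, w.1 x⟫_ℝ)).le
  refine ⟨R, ((ContinuousLinearMap.eq_adjoint_iff _ _).2 fun a b => ?_).symm, fun v => ?_, h⟩
  · refine ((cyl F).dense_toH 0 _).induction_on₂ (p := fun a b => ⟪R a, b⟫_ℝ = ⟪a, R b⟫_ℝ)
      (isClosed_eq (by fun_prop) (by fun_prop)) (fun a b => ?_) a b
    rw [h, h, LinearMap.comp_apply, LinearMap.comp_apply, Pre.inner_toH, Pre.inner_toH]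
    refine (int_rf F c fun x => ⟪a.1 (rf c x), b.1 x⟫_ℝ).symm.trans ?_
    simp only [rf_rf]; rfl
  · refine congrArg (fun L : _ →L[ℝ] _ => L v) (Pre.clm_ext (A := R ∘L R) (B := 1) fun w => ?_)
    rw [ContinuousLinearMap.comp_apply, h, LinearMap.comp_apply, h, LinearMap.comp_apply]
    exact congrArg _ (Subtype.ext (funext fun x => congrArg w.1 (rf_rf c x)))

variable {F c}

theorem ev_fld {R : KK (cyl F).toPre k →L[ℝ] KK (cyl F).toPre k} (h1 : adjoint R = R)
    (h2 : ∀ w, R ((cyl F).toH 0 _ w) = (cyl F).toH 0 _ (rs c w))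
    {T : (Y × ℝ → Eu k) → Y × ℝ → Eu k} (hT : ∀ u x, T (tr 1 c u) (rf c x) = T u x) :
    Ev (fb R) c (fld (cyl F).toPre T) := by
  rcases Eqv71.fld_cases (cyl F).toPre T with h | h
  · refine Eqv71.isFld_unique ⟨sm_tr h.1, fun u z => ?_⟩ h
    rw [tr, ← h1, ct_fb, h2, h.2]
    exact hT _ _
  · rw [h.2]; exact funext fun _ => map_zero _

end hil

end Crest.Agent.X212.Kp63
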